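import Vale.Agent.P155.S743T.Rot
import Vale.Agent.P155.Outer

/-!
# P155: Temperleyan approximations exactly as in the problem
-/

namespace Vale.Agent.P155

open Filter Topology TopologicalSpace Q1 S743T

/-- **Temperleyan approximations** of `Ω`, as in the problem: `T n` is a Temperleyan graph of mesh
`δ n` in the translate by `a n` of the grid, the polygons converge to `Ω` in the Caratheodory
sense and their boundaries converge to `∂Ω` in the Hausdorff metric. -/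
structure Approx (Ω : Set ℂ) where
  T : ℕ → Temp
  δ : ℕ → ℝ
  a : ℕ → ℂ
  pos : ∀ n, 0 < δ n
  mesh : Tendsto δ atTop (𝓝 0)
  cara₁ : ∀ K ⊆ Ω, IsCompact K → ∀ᶠ n in atTop, K ⊆ interior (region (δ n) (a n) (T n).faceSet)
  cara₂ : ∀ U : Set ℂ, IsOpen U → IsConnected U → (U ∩ Ω).Nonempty →
    (∃ᶠ n in atTop, U ⊆ region (δ n) (a n) (T n).faceSet) → U ⊆ Ω
  haus₁ : ∀ ε > 0, ∀ᶠ n in atTop,
    frontier (region (δ n) (a n) (T n).faceSet) ⊆ Metric.thickening ε (frontier Ω)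
  haus₂ : ∀ ε > 0, ∀ᶠ n in atTop,
    frontier Ω ⊆ Metric.thickening ε (frontier (region (δ n) (a n) (T n).faceSet))

namespace S743T

/-- the shift of the grid -/
noncomputable def kk (δ : ℝ) (a : ℂ) : Pt := (-⌊a.re / (2 * δ)⌋, -⌊a.im / (2 * δ)⌋)

/-- the new origin -/
noncomputable def aa (δ : ℝ) (a : ℂ) : ℂ :=
  a + 2 * δ * (((kk δ a).1 : ℂ) + ((kk δ a).2 : ℂ) * Complex.I)

theorem frac_bd {δ x : ℝ} (hδ : 0 < δ) : |x + 2 * δ * ((-⌊x / (2 * δ)⌋ : ℤ) : ℝ)| ≤ 2 * δ := by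
  have h1 := Int.floor_le (x / (2 * δ))
  have h2 := Int.lt_floor_add_one (x / (2 * δ))
  have h3 : x = 2 * δ * (x / (2 * δ)) := by field_simp
  have h4 : x + 2 * δ * ((-⌊x / (2 * δ)⌋ : ℤ) : ℝ) = 2 * δ * (x / (2 * δ) - ⌊x / (2 * δ)⌋) := by
    push_cast
    linear_combination h3
  rw [h4, abs_of_nonneg (mul_nonneg (by positivity) (by linarith))]
  calc 2 * δ * (x / (2 * δ) - ⌊x / (2 * δ)⌋) ≤ 2 * δ * 1 :=
        mul_le_mul_of_nonneg_left (by linarith) (by positivity)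
    _ = 2 * δ := by ring

theorem norm_aa {δ : ℝ} (hδ : 0 < δ) (a : ℂ) : ‖aa δ a‖ ≤ 4 * δ := by
  refine (Complex.norm_le_abs_re_add_abs_im _).trans ?_
  have h1 : (aa δ a).re = a.re + 2 * δ * ((-⌊a.re / (2 * δ)⌋ : ℤ) : ℝ) := by
    unfold aa kk
    simp
  have h2 : (aa δ a).im = a.im + 2 * δ * ((-⌊a.im / (2 * δ)⌋ : ℤ) : ℝ) := by
    unfold aa kk
    simp
  rw [h1, h2]
  have h3 := frac_bd (x := a.re) hδ
  have h4 := frac_bd (x := a.im) hδ
  linarith

theorem sqr_sh (δ : ℝ) (a : ℂ) (k f : Pt) :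
    sqr δ (a + 2 * δ * ((k.1 : ℂ) + (k.2 : ℂ) * Complex.I)) (sh (-k) f) = sqr δ a f := by
  unfold sqr sh
  ext z
  simp only [Set.mem_ofPred_eq, Prod.fst_neg, Prod.snd_neg]
  constructor
  · rintro ⟨s, t, h1, h2, h3, h4, rfl⟩
    refine ⟨s, t, h1, h2, h3, h4, ?_⟩
    push_cast
    ring
  · rintro ⟨s, t, h1, h2, h3, h4, rfl⟩
    refine ⟨s, t, h1, h2, h3, h4, ?_⟩
    push_cast
    ring

theorem region_sh (δ : ℝ) (a : ℂ) (k : Pt) (T : Temp) :
    region δ (a + 2 * δ * ((k.1 : ℂ) + (k.2 : ℂ) * Complex.I)) (shT (-k) T).faceSet =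
      region δ a T.faceSet := by
  unfold region
  rw [faceSet_sh]
  ext z
  simp only [Set.mem_iUnion, Set.mem_image, exists_prop]
  constructor
  · rintro ⟨_, ⟨f, hf, rfl⟩, hz⟩
    rw [sqr_sh] at hz
    exact ⟨f, hf, hz⟩
  · rintro ⟨f, hf, hz⟩
    refine ⟨_, ⟨f, hf, rfl⟩, ?_⟩
    rw [sqr_sh]
    exact hz

end S743T

/-- normalisation of the position of the grids -/
noncomputable def Approx.norm {Ω : Set ℂ} (S : Approx Ω) : TempApprox₀ Ω where
  T := fun n => shT (-kk (S.δ n) (S.a n)) (S.T n)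
  δ := S.δ
  a := fun n => aa (S.δ n) (S.a n)
  pos := S.pos
  mesh := S.mesh
  bdd := by
    obtain ⟨C, hC⟩ := S.mesh.bddAbove_range
    refine ⟨4 * C, fun n => (norm_aa (S.pos n) _).trans ?_⟩
    have := hC ⟨n, rfl⟩
    linarith
  cara₁ := by
    have := S.cara₁
    unfold aa
    simpa only [region_sh] using this
  cara₂ := by
    have := S.cara₂
    unfold aa
    simpa only [region_sh] using this
  haus₁ := by
    have := S.haus₁
    unfold aa
    simpa only [region_sh] using this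
  haus₂ := by
    have := S.haus₂
    unfold aa
    simpa only [region_sh] using this

theorem Approx.region_norm {Ω : Set ℂ} (S : Approx Ω) (n : ℕ) :
    region (S.norm.δ n) (S.norm.a n) (S.norm.T n).faceSet =
      region (S.δ n) (S.a n) (S.T n).faceSet :=
  region_sh (S.δ n) (S.a n) (kk (S.δ n) (S.a n)) (S.T n)

theorem Ex_congr' {V : Finset Pt} {g g' : Conf → ℝ} (h : ∀ ω ∈ DD V, g ω = g' ω) :
    Ex V g = Ex V g' := by
  unfold Ex
  rw [Finset.sum_congr rfl h]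

/-- the law of the loops does not change -/
theorem Approx.Ex_norm {Ω : Set ℂ} (S : Approx Ω) (n : ℕ) (F : LoopColl → ℝ) :
    Ex (S.norm.T n).V (fun ω => F (LL (S.norm.δ n) (S.norm.a n) ω)) =
      Ex (S.T n).V (fun ω => F (LL (S.δ n) (S.a n) ω)) := by
  show Ex (shT (-kk (S.δ n) (S.a n)) (S.T n)).V _ = _
  rw [Ex_sh]
  refine Ex_congr' fun ω hω => ?_
  show F (LL (S.δ n) (aa (S.δ n) (S.a n)) (mapC (-kk (S.δ n) (S.a n)) ω)) = _
  rw [LL_map hω]
  congr 2
  unfold aa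
  simp only [Prod.fst_neg, Prod.snd_neg]
  push_cast
  ring

end Vale.Agent.P155
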