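import Vale.Agent.P155.S743T.Trans
import Vale.Agent.P155.TC657.Orbit
import Vale.Agent.P155.H878.Match

/-!
# P155: the loop collection of a translated configuration
-/

namespace Vale.Agent.P155.S743T

open Finset Vale.Agent.P155.Q1 Vale.Agent.P155.TC

variable {V : Finset Pt} {ω : Conf}

/-- rotation of the enumeration -/
theorem yv_rot (hω : ω ∈ DD V) {v : Pt} (h : ω.1 v ≠ ω.2 v) (i : ℕ)
    (hc : comp ω ((SW.suc ω)^[i] v) = comp ω v) (j : ℤ) :
    yv ω ((SW.suc ω)^[i] v) j = yv ω v (j + i) := by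
  have hN : (0 : ℤ) < (comp ω v).ncard := by
    have := len_pos hω h
    rw [← ncard_comp hω h] at this
    exact_mod_cast this
  have e1 : yv ω v (j + i) = yv ω v (j % ((comp ω v).ncard : ℤ) + i) := by
    unfold yv
    rw [Int.emod_add_emod]
  rw [e1, yv_add_nat hω h]
  unfold yv
  rw [hc, ← Function.iterate_add_apply, ← Function.iterate_add_apply, Int.emod_emod_of_dvd _ dvd_rfl,
    add_comm]

/-- the curve through another vertex of the loop is the same loop -/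
theorem lcurve_rot (hω : ω ∈ DD V) (δ : ℝ) (a : ℂ) {v : Pt} (h : ω.1 v ≠ ω.2 v) (i : ℕ)
    (hc : comp ω ((SW.suc ω)^[i] v) = comp ω v) :
    (SeparationQuotient.mk (lcurve δ a ω ((SW.suc ω)^[i] v)) : Loop) =
      SeparationQuotient.mk (lcurve δ a ω v) := by
  rw [SeparationQuotient.mk_eq_mk, Metric.inseparable_iff]
  have hN : (0 : ℝ) < (comp ω v).ncard := by
    have := len_pos hω h
    rw [← ncard_comp hω h] at this
    exact_mod_cast this
  refine le_antisymm ?_ dist_nonneg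
  refine (ldist_le _ _ (Homeomorph.addRight (((i : ℝ) / (comp ω v).ncard : ℝ) : S1))).trans ?_
  refine le_of_eq ?_
  rw [dist_eq_zero]
  ext x
  obtain ⟨t, rfl⟩ := QuotientAddGroup.mk_surjective x
  have e1 : (lcurve δ a ω ((SW.suc ω)^[i] v)).c ((t : ℝ) : S1) =
      poly (cyc δ a ω ((SW.suc ω)^[i] v)) ((comp ω v).ncard * t) := by
    refine (polyLoop_coe (comp ω ((SW.suc ω)^[i] v)).ncard (cyc δ a ω ((SW.suc ω)^[i] v))
      (cyc_periodic δ a ω ((SW.suc ω)^[i] v)) t).trans ?_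
    rw [hc]
  have e2 : (lcurve δ a ω v).c (((t + (i : ℝ) / (comp ω v).ncard : ℝ)) : S1) =
      poly (cyc δ a ω v) ((comp ω v).ncard * (t + (i : ℝ) / (comp ω v).ncard)) :=
    polyLoop_coe (comp ω v).ncard (cyc δ a ω v) (cyc_periodic δ a ω v) _
  have e3 : ((comp ω v).ncard : ℝ) * (t + (i : ℝ) / (comp ω v).ncard) =
      (comp ω v).ncard * t + i := by field_simp
  have e4 : ∀ s : ℝ, poly (cyc δ a ω ((SW.suc ω)^[i] v)) s = poly (cyc δ a ω v) (s + i) := by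
    intro s
    unfold poly
    have h1 : ⌊s + i⌋ = ⌊s⌋ + i := Int.floor_add_natCast s i
    have h2 : ∀ j : ℤ, cyc δ a ω ((SW.suc ω)^[i] v) j = cyc δ a ω v (j + i) := by
      intro j
      rw [TC.cyc_eq, TC.cyc_eq, yv_rot hω h i hc]
    rw [h1, h2, h2, show ⌊s⌋ + (i : ℤ) + 1 = ⌊s⌋ + 1 + i by ring]
    push_cast
    ring_nf
  show (lcurve δ a ω ((SW.suc ω)^[i] v)).c ((t : ℝ) : S1) =
    (lcurve δ a ω v).c (((t : ℝ) : S1) + (((i : ℝ) / (comp ω v).ncard : ℝ) : S1))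
  rw [← AddCircle.coe_add, e1, e2, e3, e4]

/-- the loop does not depend on the starting vertex -/
theorem lcurve_indep (hω : ω ∈ DD V) (δ : ℝ) (a : ℂ) {u v : Pt} (hv : ω.1 v ≠ ω.2 v)
    (h : comp ω u = comp ω v) :
    (SeparationQuotient.mk (lcurve δ a ω u) : Loop) = SeparationQuotient.mk (lcurve δ a ω v) := by
  have hu : u ∈ comp ω v := by
    rw [← h]
    exact Relation.ReflTransGen.refl
  rw [comp_eq hω hv] at hu
  obtain ⟨i, -, rfl⟩ := hu
  exact lcurve_rot hω δ a hv i h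

theorem pt_sh (δ : ℝ) (a : ℂ) (k v : Pt) :
    pt δ a (sh k v) = pt δ (a + 2 * δ * ((k.1 : ℂ) + (k.2 : ℂ) * Complex.I)) v := by
  unfold pt sh
  push_cast
  ring

theorem lcurve_map (δ : ℝ) (a : ℂ) (k v : Pt) (ω : Conf) :
    lcurve δ a (mapC k ω) (sh k v) =
      lcurve δ (a + 2 * δ * ((k.1 : ℂ) + (k.2 : ℂ) * Complex.I)) ω v := by
  have h1 : (comp (mapC k ω) (sh k v)).ncard = (comp ω v).ncard := by
    rw [comp_map, Set.ncard_image_of_injective _ (sh_inj k)]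
  apply PL.ext
  ext x
  obtain ⟨t, rfl⟩ := QuotientAddGroup.mk_surjective x
  have e1 : (lcurve δ a (mapC k ω) (sh k v)).c ((t : ℝ) : S1) =
      poly (cyc δ a (mapC k ω) (sh k v)) ((comp ω v).ncard * t) := by
    refine (polyLoop_coe (comp (mapC k ω) (sh k v)).ncard (cyc δ a (mapC k ω) (sh k v))
      (cyc_periodic δ a (mapC k ω) (sh k v)) t).trans ?_
    rw [h1]
  have e2 : (lcurve δ (a + 2 * δ * ((k.1 : ℂ) + (k.2 : ℂ) * Complex.I)) ω v).c ((t : ℝ) : S1) =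
      poly (cyc δ (a + 2 * δ * ((k.1 : ℂ) + (k.2 : ℂ) * Complex.I)) ω v) ((comp ω v).ncard * t) :=
    polyLoop_coe (comp ω v).ncard _ (cyc_periodic _ _ ω v) t
  have e3 : cyc δ a (mapC k ω) (sh k v) =
      cyc δ (a + 2 * δ * ((k.1 : ℂ) + (k.2 : ℂ) * Complex.I)) ω v := by
    funext j
    unfold cyc
    rw [h1, suc_iter, pt_sh]
  show (lcurve δ a (mapC k ω) (sh k v)).c ((t : ℝ) : S1) =
    (lcurve δ (a + 2 * δ * ((k.1 : ℂ) + (k.2 : ℂ) * Complex.I)) ω v).c ((t : ℝ) : S1)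
  rw [e1, e2, e3]

theorem loopOf_map {T : Temp} {ω : Conf} (hω : ω ∈ DD T.V) (δ : ℝ) (a : ℂ) (k : Pt) {L : Set Pt}
    (hL : L ∈ Loops ω) :
    loopOf δ a (mapC k ω) (sh k '' L) =
      loopOf δ (a + 2 * δ * ((k.1 : ℂ) + (k.2 : ℂ) * Complex.I)) ω L := by
  have hω' := (mem_DD_sh k).2 hω
  have hL' : sh k '' L ∈ Loops (mapC k ω) := by
    rw [loops_map]
    exact ⟨L, hL, rfl⟩
  obtain ⟨v, hv, hcv, e1⟩ := loopOf_eq hω hL δ (a + 2 * δ * ((k.1 : ℂ) + (k.2 : ℂ) * Complex.I))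
  obtain ⟨v', hv', hcv', e2⟩ := loopOf_eq hω' hL' δ a
  rw [e1, e2, ← lcurve_map]
  refine lcurve_indep hω' δ a ((ne_map k).2 hv) ?_
  rw [hcv', comp_map, hcv]

/-- the loop collection of a translated configuration -/
theorem LL_map {T : Temp} {ω : Conf} (hω : ω ∈ DD T.V) (δ : ℝ) (a : ℂ) (k : Pt) :
    LL δ a (mapC k ω) = LL δ (a + 2 * δ * ((k.1 : ℂ) + (k.2 : ℂ) * Complex.I)) ω := by
  have hω' := (mem_DD_sh k).2 hω
  have hf := Vale.Agent.P155.L.loops_finite hω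
  have hf' := Vale.Agent.P155.L.loops_finite hω'
  unfold LL
  rw [dif_pos hf, dif_pos hf']
  apply LoopColl.ext
  funext γ
  unfold ofFamily
  simp only
  have e : {i | i ∈ Loops (mapC k ω) ∧ loopOf δ a (mapC k ω) i = γ} = (fun L => sh k '' L) ''
      {i | i ∈ Loops ω ∧
        loopOf δ (a + 2 * δ * ((k.1 : ℂ) + (k.2 : ℂ) * Complex.I)) ω i = γ} := by
    ext L
    constructor
    · rintro ⟨h1, h2⟩
      rw [loops_map] at h1
      obtain ⟨A, hA, rfl⟩ := h1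
      refine ⟨A, ⟨hA, ?_⟩, rfl⟩
      rw [← h2, loopOf_map hω δ a k hA]
    · rintro ⟨A, ⟨hA, h2⟩, rfl⟩
      refine ⟨?_, ?_⟩
      · rw [loops_map]
        exact ⟨A, hA, rfl⟩
      · simp only
        rw [loopOf_map hω δ a k hA, h2]
  rw [e, Set.ncard_image_of_injective _ (sh_inj k).image_injective]

end Vale.Agent.P155.S743T
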