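import Vale.Agent.P155.A.InLoop
import Vale.Agent.P155.F.Arc

/-!
# P155: translations of the double-dimer model by even vectors
-/

namespace Vale.Agent.P155.S743T

open Finset

/-- translation by the even vector `2 k` -/
def sh (k x : Pt) : Pt := (x.1 + 2 * k.1, x.2 + 2 * k.2)

theorem sh_neg (k x : Pt) : sh k (sh (-k) x) = x := by
  unfold sh
  apply Prod.ext <;> simp

theorem neg_sh (k x : Pt) : sh (-k) (sh k x) = x := by
  unfold sh
  apply Prod.ext <;> simp

theorem sh_inj (k : Pt) : Function.Injective (sh k) := fun x y h => by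
  rw [← neg_sh k x, h, neg_sh]

theorem sh_adj (k : Pt) {x y : Pt} (h : Adj x y) : Adj (sh k x) (sh k y) := by
  unfold Adj sh at *
  simpa using h

theorem sh_white (k x : Pt) : White (sh k x) ↔ White x := by
  unfold White sh
  simp only
  rw [Int.odd_iff, Int.odd_iff]
  omega

/-! ### polygons -/

/-- translated cycle -/
def shG (k : Pt) (γ : LatCycle) : LatCycle where
  n := γ.n
  hn := γ.hn
  c := fun i => ((γ.c i).1 + k.1, (γ.c i).2 + k.2)
  inj := by
    intro i j h
    apply γ.inj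
    simp only [Prod.mk.injEq, add_left_inj] at h
    exact Prod.ext h.1 h.2
  adj := by
    intro i
    have := γ.adj i
    unfold Adj at *
    simpa using this

/-- translated Temperleyan graph -/
def shT (k : Pt) (T : Temp) : Temp where
  γ := shG k T.γ
  i0 := T.i0

theorem vedge_sh (k : Pt) (γ : LatCycle) (j y : ℤ) :
    (shG k γ).vedge j y ↔ γ.vedge (j - k.1) (y - k.2) := by
  unfold LatCycle.vedge
  have e : ∀ (p : Pt) (a b : ℤ), (((p.1 + k.1, p.2 + k.2) : Pt) = (a, b) ↔ p = (a - k.1, b - k.2)) := by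
    intro p a b
    rw [Prod.ext_iff, Prod.ext_iff]
    simp only
    constructor <;> rintro ⟨h1, h2⟩ <;> constructor <;> omega
  have e2 : y - k.2 + 1 = y + 1 - k.2 := by ring
  rw [e2]
  constructor
  · rintro ⟨i, h⟩
    refine ⟨i, ?_⟩
    rcases h with ⟨h1, h2⟩ | ⟨h1, h2⟩
    · exact Or.inl ⟨(e _ _ _).1 h1, (e _ _ _).1 h2⟩
    · exact Or.inr ⟨(e _ _ _).1 h1, (e _ _ _).1 h2⟩
  · rintro ⟨i, h⟩
    refine ⟨i, ?_⟩
    rcases h with ⟨h1, h2⟩ | ⟨h1, h2⟩
    · exact Or.inl ⟨(e _ _ _).2 h1, (e _ _ _).2 h2⟩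
    · exact Or.inr ⟨(e _ _ _).2 h1, (e _ _ _).2 h2⟩

theorem inside_sh (k : Pt) (γ : LatCycle) (f : Pt) :
    (shG k γ).inside f ↔ γ.inside (f.1 - k.1, f.2 - k.2) := by
  unfold LatCycle.inside
  have : {j : ℤ | j ≤ f.1 ∧ (shG k γ).vedge j f.2} =
      (fun j : ℤ => j + k.1) '' {j : ℤ | j ≤ f.1 - k.1 ∧ γ.vedge j (f.2 - k.2)} := by
    ext j
    constructor
    · rintro ⟨h1, h2⟩
      rw [vedge_sh] at h2
      exact ⟨j - k.1, ⟨by omega, h2⟩, by simp⟩
    · rintro ⟨i, ⟨h1, h2⟩, rfl⟩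
      refine ⟨by simp only; omega, ?_⟩
      rw [vedge_sh]
      simpa using h2
  rw [this, Set.ncard_image_of_injective _ (add_left_injective k.1)]

theorem mem_faceSet_sh (k : Pt) (T : Temp) (f : Pt) :
    f ∈ (shT k T).faceSet ↔ sh (-k) f ∈ T.faceSet := by
  rw [A1.mem_faceSet, A1.mem_faceSet]
  show (shG k T.γ).inside _ ↔ _
  rw [inside_sh]
  have e : ((f.1 / 2 - k.1, f.2 / 2 - k.2) : Pt) = ((sh (-k) f).1 / 2, (sh (-k) f).2 / 2) := by
    unfold sh
    apply Prod.ext <;> simp only [Prod.fst_neg, Prod.snd_neg] <;> omega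
  simp only [e]

theorem faceSet_sh (k : Pt) (T : Temp) : (shT k T).faceSet = sh k '' T.faceSet := by
  ext f
  rw [mem_faceSet_sh]
  constructor
  · intro h
    exact ⟨_, h, sh_neg k f⟩
  · rintro ⟨g, hg, rfl⟩
    rwa [neg_sh]

theorem v0_sh (k : Pt) (T : Temp) : (shT k T).v0 = sh k T.v0 := by
  unfold Temp.v0 sh
  apply Prod.ext
  · show 2 * ((T.γ.c T.i0).1 + k.1) = _
    ring
  · show 2 * ((T.γ.c T.i0).2 + k.2) = _
    ring

theorem closedVerts_sh (k : Pt) (T : Temp) (x : Pt) :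
    sh k x ∈ (shT k T).closedVerts ↔ x ∈ T.closedVerts := by
  constructor
  · rintro ⟨g, hg, h1, h2, h3, h4⟩
    have hg' : (shG k T.γ).inside g := hg
    rw [inside_sh] at hg'
    unfold sh at h1 h2 h3 h4
    exact ⟨_, hg', by simp only at *; omega, by simp only at *; omega, by simp only at *; omega,
      by simp only at *; omega⟩
  · rintro ⟨g, hg, h1, h2, h3, h4⟩
    refine ⟨(g.1 + k.1, g.2 + k.2), ?_, ?_, ?_, ?_, ?_⟩
    · show (shG k T.γ).inside _
      rw [inside_sh]
      have h5 : T.γ.inside g := hg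
      simpa using h5
    all_goals
      unfold sh
      simp only
      omega

open Classical in
theorem V_sh (k : Pt) (T : Temp) : (shT k T).V = T.V.image (sh k) := by
  ext x
  rw [A1.mem_V, Finset.mem_image]
  constructor
  · rintro ⟨h1, h2⟩
    refine ⟨sh (-k) x, ?_, sh_neg k x⟩
    rw [A1.mem_V]
    constructor
    · rw [← closedVerts_sh k, sh_neg]
      exact h1
    · intro h
      apply h2
      rw [v0_sh, ← h, sh_neg]
  · rintro ⟨y, hy, rfl⟩
    rw [A1.mem_V] at hy
    refine ⟨(closedVerts_sh k T y).2 hy.1, ?_⟩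
    rw [v0_sh]
    exact fun h => hy.2 (sh_inj k h)

/-! ### configurations -/

/-- action on matchings -/
def mapM (k : Pt) (m : Pt → Pt) : Pt → Pt := fun x => sh k (m (sh (-k) x))

/-- action on configurations -/
def mapC (k : Pt) (ω : Conf) : Conf := (mapM k ω.1, mapM k ω.2)

theorem mapM_sh (k : Pt) (m : Pt → Pt) (x : Pt) : mapM k m (sh k x) = sh k (m x) := by
  unfold mapM
  rw [neg_sh]

theorem mapC_neg (k : Pt) (ω : Conf) : mapC k (mapC (-k) ω) = ω := by
  have h : ∀ m : Pt → Pt, mapM k (mapM (-k) m) = m := by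
    intro m
    funext x
    unfold mapM
    rw [sh_neg, neg_neg, sh_neg]
  unfold mapC
  simp only [h]

theorem neg_mapC (k : Pt) (ω : Conf) : mapC (-k) (mapC k ω) = ω := by
  have := mapC_neg (-k) ω
  rwa [neg_neg] at this

theorem mapC_inj (k : Pt) : Function.Injective (mapC k) := fun x y h => by
  rw [← neg_mapC k x, h, neg_mapC]

open Classical in
theorem isPM_map (k : Pt) {V : Finset Pt} {m : Pt → Pt} (h : IsPM V m) :
    IsPM (V.image (sh k)) (mapM k m) where
  invol := fun x => by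
    unfold mapM
    rw [neg_sh, h.invol, sh_neg]
  off := fun x hx => by
    unfold mapM
    rw [h.off, sh_neg]
    intro h'
    exact hx (Finset.mem_image.2 ⟨sh (-k) x, h', sh_neg k x⟩)
  adj := fun x hx => by
    obtain ⟨y, hy, rfl⟩ := Finset.mem_image.1 hx
    rw [mapM_sh]
    exact sh_adj k (h.adj y hy)

open Classical in
theorem image_neg (k : Pt) (V : Finset Pt) : (V.image (sh k)).image (sh (-k)) = V := by
  ext x
  simp only [Finset.mem_image]
  constructor
  · rintro ⟨y, ⟨z, hz, rfl⟩, rfl⟩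
    rwa [neg_sh]
  · intro hx
    exact ⟨sh k x, ⟨x, hx, rfl⟩, neg_sh k x⟩

open Classical in
theorem mem_DD_map (k : Pt) {V : Finset Pt} {ω : Conf} :
    mapC k ω ∈ DD (V.image (sh k)) ↔ ω ∈ DD V := by
  have key : ∀ (k : Pt) (V : Finset Pt) (ω : Conf), ω ∈ DD V → mapC k ω ∈ DD (V.image (sh k)) := by
    intro k V ω h
    have h' := Finset.mem_product.1 h
    exact Finset.mem_product.2 ⟨mem_PM.2 (isPM_map k (mem_PM.1 h'.1)),
      mem_PM.2 (isPM_map k (mem_PM.1 h'.2))⟩
  refine ⟨fun h => ?_, key k V ω⟩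
  have := key (-k) _ _ h
  rwa [neg_mapC, image_neg] at this

open Classical in
theorem DD_map (k : Pt) (V : Finset Pt) : DD (V.image (sh k)) = (DD V).image (mapC k) := by
  ext ω
  rw [Finset.mem_image]
  constructor
  · intro h
    refine ⟨mapC (-k) ω, ?_, mapC_neg k ω⟩
    rw [← mem_DD_map k, mapC_neg]
    exact h
  · rintro ⟨ω', h, rfl⟩
    exact (mem_DD_map k).2 h

theorem Ex_sh (k : Pt) (T : Temp) (g : Conf → ℝ) :
    Ex (shT k T).V g = Ex T.V (fun ω => g (mapC k ω)) := by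
  classical
  rw [V_sh]
  unfold Ex
  rw [DD_map, Finset.card_image_of_injective _ (mapC_inj k),
    Finset.sum_image (fun x _ y _ h => mapC_inj k h)]

theorem mem_DD_sh (k : Pt) {T : Temp} {ω : Conf} : mapC k ω ∈ DD (shT k T).V ↔ ω ∈ DD T.V := by
  classical
  rw [V_sh]
  exact mem_DD_map k

theorem suc_map (k : Pt) (ω : Conf) (x : Pt) :
    SW.suc (mapC k ω) (sh k x) = sh k (SW.suc ω x) := by
  unfold SW.suc
  by_cases h : White x
  · rw [if_pos h, if_pos ((sh_white k x).2 h)]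
    exact mapM_sh k _ _
  · rw [if_neg h, if_neg (fun h' => h ((sh_white k x).1 h'))]
    exact mapM_sh k _ _

theorem suc_iter (k : Pt) (ω : Conf) (x : Pt) (j : ℕ) :
    (SW.suc (mapC k ω))^[j] (sh k x) = sh k ((SW.suc ω)^[j] x) := by
  induction j with
  | zero => rfl
  | succ j ih => rw [Function.iterate_succ_apply', Function.iterate_succ_apply', ih, suc_map]

theorem same_map (k : Pt) {ω : Conf} {x y : Pt} (h : Same ω x y) :
    Same (mapC k ω) (sh k x) (sh k y) := by
  induction h with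
  | refl => exact Relation.ReflTransGen.refl
  | tail _ h2 ih =>
    refine ih.tail ?_
    rcases h2 with h2 | h2
    · left
      rw [h2]
      exact (mapM_sh k _ _).symm
    · right
      rw [h2]
      exact (mapM_sh k _ _).symm

theorem same_iff (k : Pt) {ω : Conf} {x y : Pt} :
    Same (mapC k ω) (sh k x) (sh k y) ↔ Same ω x y := by
  refine ⟨fun h => ?_, same_map k⟩
  have := same_map (-k) h
  rwa [neg_mapC, neg_sh, neg_sh] at this

theorem comp_map (k : Pt) (ω : Conf) (x : Pt) : comp (mapC k ω) (sh k x) = sh k '' comp ω x := by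
  ext y
  constructor
  · intro h
    refine ⟨sh (-k) y, ?_, sh_neg k y⟩
    show Same ω x (sh (-k) y)
    rw [← same_iff k, sh_neg]
    exact h
  · rintro ⟨z, hz, rfl⟩
    exact same_map k hz

theorem ne_map (k : Pt) {ω : Conf} {x : Pt} :
    (mapC k ω).1 (sh k x) ≠ (mapC k ω).2 (sh k x) ↔ ω.1 x ≠ ω.2 x := by
  unfold mapC
  simp only [mapM_sh]
  exact (sh_inj k).ne_iff

theorem loops_map (k : Pt) (ω : Conf) : Loops (mapC k ω) = (fun L => sh k '' L) '' Loops ω := by
  ext L
  constructor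
  · rintro ⟨v, hv, rfl⟩
    have h1 : ω.1 (sh (-k) v) ≠ ω.2 (sh (-k) v) := by
      rw [← ne_map k, sh_neg]
      exact hv
    refine ⟨comp ω (sh (-k) v), ⟨_, h1, rfl⟩, ?_⟩
    simp only
    rw [← comp_map, sh_neg]
  · rintro ⟨A, ⟨v, hv, rfl⟩, rfl⟩
    exact ⟨sh k v, (ne_map k).2 hv, (comp_map k ω v).symm⟩

end Vale.Agent.P155.S743T
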